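import Mathlib

namespace Vale.Agent.P188

universe u v

/-- `G` is polycyclic: there is a subnormal series `1 = S 0 ⊴ S 1 ⊴ ... ⊴ S m = G`
with every quotient `S (i+1) / S i` cyclic. -/
def IsPolycyclic (G : Type u) [Group G] : Prop :=
  ∃ (m : ℕ) (S : ℕ → Subgroup G), S 0 = ⊥ ∧ S m = ⊤ ∧
    ∀ i < m, S i ≤ S (i + 1) ∧
      ∃ _ : ((S i).subgroupOf (S (i + 1))).Normal,
        IsCyclic (S (i + 1) ⧸ (S i).subgroupOf (S (i + 1)))

/-- `G` is virtually polycyclic: some finite-index subgroup is polycyclic. -/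
def IsVirtuallyPolycyclic (G : Type u) [Group G] : Prop :=
  ∃ P : Subgroup G, P.FiniteIndex ∧ IsPolycyclic P

/-- Word length of `g` with respect to `S`: the least length of a word in `S ∪ S⁻¹`
representing `g`. -/
noncomputable def wordLength {G : Type u} [Group G] (S : Set G) (g : G) : ℕ :=
  sInf {n : ℕ | ∃ l : List G, l.length = n ∧ (∀ x ∈ l, x ∈ S ∨ x⁻¹ ∈ S) ∧ l.prod = g}

/-- The (left-invariant) word metric. -/
noncomputable def wordDist {G : Type u} [Group G] (S : Set G) (x y : G) : ℝ :=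
  (wordLength S (x⁻¹ * y) : ℝ)

/-- `F` is a `(K, C)`-quasi-isometry between `(X, dX)` and `(Y, dY)`. -/
structure IsQuasiIsometry {X : Type u} {Y : Type v} (dX : X → X → ℝ) (dY : Y → Y → ℝ)
    (K C : ℝ) (F : X → Y) : Prop where
  one_le : 1 ≤ K
  nonneg : 0 ≤ C
  lower : ∀ x x', K⁻¹ * dX x x' - C ≤ dY (F x) (F x')
  upper : ∀ x x', dY (F x) (F x') ≤ K * dX x x' + C
  dense : ∀ y, ∃ x, dY y (F x) ≤ C

/-- Finitely generated groups `H`, `G` are quasi-isometric: word metrics of finite generating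
sets are quasi-isometric. -/
def QuasiIsometricGroups (H : Type u) (G : Type v) [Group H] [Group G] : Prop :=
  ∃ (S : Finset H) (T : Finset G),
    Subgroup.closure (S : Set H) = ⊤ ∧ Subgroup.closure (T : Set G) = ⊤ ∧
    ∃ (K C : ℝ) (F : H → G),
      IsQuasiIsometry (wordDist (S : Set H)) (wordDist (T : Set G)) K C F

end Vale.Agent.P188
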