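import Vale.Agent.P188.Defs

namespace Vale.Agent.P188
open Subgroup

universe u v w

def CycQuot {G : Type u} [Group G] (N : Subgroup G) : Prop :=
  ∃ g : G, ∀ b : G, ∃ n : ℤ, (g ^ n)⁻¹ * b ∈ N

lemma cycQuot_iff {G : Type u} [Group G] (N : Subgroup G) [N.Normal] :
    CycQuot N ↔ IsCyclic (G ⧸ N) := by
  constructor
  · rintro ⟨g, hg⟩
    refine ⟨⟨(g : G ⧸ N), fun x => ?_⟩⟩
    induction x using QuotientGroup.induction_on with
    | H b =>
      obtain ⟨n, hn⟩ := hg b
      refine ⟨n, ?_⟩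
      show ((g : G ⧸ N)) ^ n = (b : G ⧸ N)
      rw [← QuotientGroup.mk_zpow]
      exact QuotientGroup.eq.mpr hn
  · rintro ⟨⟨x, hx⟩⟩
    induction x using QuotientGroup.induction_on with
    | H g =>
      refine ⟨g, fun b => ?_⟩
      obtain ⟨n, hn⟩ := hx (b : G ⧸ N)
      refine ⟨n, ?_⟩
      have : ((g ^ n : G) : G ⧸ N) = (b : G ⧸ N) := by
        rw [QuotientGroup.mk_zpow]; exact hn
      exact QuotientGroup.eq.mp this

lemma cycQuot_ker {A : Type u} {C : Type v} [Group A] [Group C] [IsCyclic C] (φ : A →* C) :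
    CycQuot φ.ker := by
  obtain ⟨⟨c, hc⟩⟩ := (Subgroup.isCyclic φ.range)
  obtain ⟨c, a₀, rfl⟩ := c
  refine ⟨a₀, fun a => ?_⟩
  obtain ⟨n, hn⟩ := hc ⟨φ a, a, rfl⟩
  refine ⟨n, ?_⟩
  have h2 : (φ a₀) ^ n = φ a := by
    have := congrArg Subtype.val hn
    simpa using this
  rw [MonoidHom.mem_ker, map_mul, map_inv, map_zpow, h2, inv_mul_cancel]

lemma CycQuot.mono {G : Type u} [Group G] {N N' : Subgroup G} (h : N ≤ N') (hN : CycQuot N) :
    CycQuot N' := by
  obtain ⟨g, hg⟩ := hN
  exact ⟨g, fun b => (hg b).imp fun n hn => h hn⟩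

lemma CycQuot.comap {A : Type u} {G : Type v} [Group A] [Group G] (f : A →* G)
    {N : Subgroup G} [N.Normal] (hN : CycQuot N) : CycQuot (N.comap f) := by
  have : IsCyclic (G ⧸ N) := (cycQuot_iff N).mp hN
  have := cycQuot_ker ((QuotientGroup.mk' N).comp f)
  rwa [← MonoidHom.comap_ker, QuotientGroup.ker_mk'] at this

lemma CycQuot.map {G : Type u} {Q : Type v} [Group G] [Group Q] (f : G →* Q)
    (hf : Function.Surjective f) {N : Subgroup G} (hN : CycQuot N) : CycQuot (N.map f) := by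
  obtain ⟨g, hg⟩ := hN
  refine ⟨f g, fun b => ?_⟩
  obtain ⟨b, rfl⟩ := hf b
  obtain ⟨n, hn⟩ := hg b
  exact ⟨n, ⟨_, hn, by simp⟩⟩

def PolyLen : ℕ → ∀ (G : Type u) [Group G], Prop
  | 0, G, _ => Subsingleton G
  | n + 1, G, _ => ∃ N : Subgroup G, N.Normal ∧ CycQuot N ∧ PolyLen n N

lemma PolyLen.of_injective : ∀ (n : ℕ) {A : Type u} {G : Type v} [Group A] [Group G] (f : A →* G)
    (_ : Function.Injective f), PolyLen n G → PolyLen n A
  | 0, A, G, _, _, f, hf, h => by
    have h' : Subsingleton G := h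
    exact hf.subsingleton
  | n + 1, A, G, _, _, f, hf, h => by
    obtain ⟨N, hN, hc, hp⟩ := h
    refine ⟨N.comap f, hN.comap f, hc.comap f, ?_⟩
    refine PolyLen.of_injective n (f.subgroupComap N) ?_ hp
    intro x y hxy
    have := congrArg Subtype.val hxy
    exact Subtype.ext (hf this)

lemma PolyLen.of_surjective : ∀ (n : ℕ) {G : Type u} {Q : Type v} [Group G] [Group Q] (f : G →* Q)
    (_ : Function.Surjective f), PolyLen n G → PolyLen n Q
  | 0, G, Q, _, _, f, hf, h => by
    have h' : Subsingleton G := h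
    exact hf.subsingleton
  | n + 1, G, Q, _, _, f, hf, h => by
    obtain ⟨N, hN, hc, hp⟩ := h
    refine ⟨N.map f, hN.map f hf, hc.map f hf, ?_⟩
    exact PolyLen.of_surjective n (f.subgroupMap N) (f.subgroupMap_surjective N) hp


lemma PolyLen.of_ker (a : ℕ) : ∀ (b : ℕ) {G : Type u} {Q : Type v} [Group G] [Group Q] (f : G →* Q),
    PolyLen b Q → PolyLen a f.ker → PolyLen (a + b) G
  | 0, G, Q, _, _, f, hQ, hk => by
    have h' : Subsingleton Q := hQ
    refine PolyLen.of_injective a ((MonoidHom.id G).codRestrict f.ker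
      (fun x => by rw [MonoidHom.mem_ker]; exact Subsingleton.elim _ _)) ?_ hk
    intro x y hxy
    exact congrArg Subtype.val hxy
  | b + 1, G, Q, _, _, f, hQ, hk => by
    obtain ⟨M, hM, hc, hp⟩ := hQ
    refine ⟨M.comap f, hM.comap f, hc.comap f, ?_⟩
    refine PolyLen.of_ker a b (f.subgroupComap M) hp ?_
    refine PolyLen.of_injective a
      (((M.comap f).subtype.comp (f.subgroupComap M).ker.subtype).codRestrict f.ker ?_) ?_ hk
    · intro x
      have hx := x.2
      rw [MonoidHom.mem_ker] at hx ⊢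
      exact congrArg Subtype.val hx
    · intro x y hxy
      have := congrArg Subtype.val hxy
      exact Subtype.ext (Subtype.ext this)

lemma finiteIndex_comap {A : Type u} {G : Type v} [Group A] [Group G] (f : A →* G)
    (P : Subgroup G) [hP : P.FiniteIndex] : (P.comap f).FiniteIndex := by
  refine ⟨?_⟩
  rw [Subgroup.index_comap]
  exact fun h => hP.index_ne_zero (Subgroup.index_eq_zero_of_relIndex_eq_zero h)

/-- internal form of virtually polycyclic -/
def VP (G : Type u) [Group G] : Prop :=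
  ∃ P : Subgroup G, P.FiniteIndex ∧ ∃ n, PolyLen n P

lemma VP.of_injective {A : Type u} {G : Type v} [Group A] [Group G] (f : A →* G)
    (hf : Function.Injective f) (h : VP G) : VP A := by
  obtain ⟨P, hP, n, hn⟩ := h
  refine ⟨P.comap f, finiteIndex_comap f P, n, ?_⟩
  refine PolyLen.of_injective n (f.subgroupComap P) ?_ hn
  intro x y hxy
  have := congrArg Subtype.val hxy
  exact Subtype.ext (hf this)

lemma VP.of_surjective {G : Type u} {Q : Type v} [Group G] [Group Q] (f : G →* Q)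
    (hf : Function.Surjective f) (h : VP G) : VP Q := by
  obtain ⟨P, hP, n, hn⟩ := h
  refine ⟨P.map f, ?_, n, PolyLen.of_surjective n (f.subgroupMap P) (f.subgroupMap_surjective P) hn⟩
  exact ⟨fun h0 => hP.index_ne_zero (Nat.eq_zero_of_zero_dvd (h0 ▸ Subgroup.index_map_dvd P hf))⟩

lemma VP.of_finiteIndex {G : Type u} [Group G] (A : Subgroup G) [hA : A.FiniteIndex] (h : VP A) :
    VP G := by
  obtain ⟨P, hP, n, hn⟩ := h
  refine ⟨P.map A.subtype, ?_, n, ?_⟩
  · refine ⟨?_⟩
    rw [Subgroup.index_map_subtype]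
    exact mul_ne_zero hP.index_ne_zero hA.index_ne_zero
  · exact PolyLen.of_surjective n (A.subtype.subgroupMap P) (A.subtype.subgroupMap_surjective P) hn


lemma fg_of_cycQuot {G : Type u} [Group G] (N : Subgroup G) (hc : CycQuot N) (hN : Group.FG N) :
    Group.FG G := by
  obtain ⟨S, hS⟩ := (Group.fg_iff_subgroup_fg N).mp hN
  obtain ⟨g, hg⟩ := hc
  classical
  refine ⟨⟨insert g S, ?_⟩⟩
  rw [eq_top_iff]
  intro b _
  obtain ⟨n, hn⟩ := hg b
  have h1 : g ^ n ∈ closure ((insert g S : Finset G) : Set G) :=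
    Subgroup.zpow_mem _ (subset_closure (by simp)) n
  have h2 : (g ^ n)⁻¹ * b ∈ closure ((insert g S : Finset G) : Set G) := by
    rw [← hS] at hn
    exact closure_mono (by simp) hn
  have := Subgroup.mul_mem _ h1 h2
  simpa using this

lemma PolyLen.fg : ∀ (n : ℕ) {G : Type u} [Group G], PolyLen n G → Group.FG G
  | 0, G, _, h => by
    have h' : Subsingleton G := h
    infer_instance
  | n + 1, G, _, h => by
    obtain ⟨N, _, hc, hp⟩ := h
    exact fg_of_cycQuot N hc (PolyLen.fg n hp)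

lemma fg_of_finiteIndex {G : Type u} [Group G] (A : Subgroup G) [hA : A.FiniteIndex]
    (hfg : Group.FG A) : Group.FG G := by
  obtain ⟨S, hS⟩ := (Group.fg_iff_subgroup_fg A).mp hfg
  classical
  have hfin : (Set.range (fun q : G ⧸ A => q.out)).Finite := Set.finite_range _
  refine (Group.fg_iff).mpr ⟨(S : Set G) ∪ Set.range (fun q : G ⧸ A => q.out), ?_,
    S.finite_toSet.union hfin⟩
  rw [eq_top_iff]
  intro b _
  obtain ⟨h, hh⟩ := QuotientGroup.mk_out_eq_mul A b
  have h1 : ((b : G ⧸ A)).out ∈ closure ((S : Set G) ∪ Set.range (fun q : G ⧸ A => q.out)) :=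
    subset_closure (Or.inr ⟨_, rfl⟩)
  have h2 : (h : G) ∈ closure ((S : Set G) ∪ Set.range (fun q : G ⧸ A => q.out)) := by
    have : (h : G) ∈ closure (S : Set G) := by rw [hS]; exact h.2
    exact closure_mono Set.subset_union_left this
  have h3 : b = ((b : G ⧸ A)).out * (h : G)⁻¹ := by rw [hh]; group
  rw [h3]
  exact Subgroup.mul_mem _ h1 (Subgroup.inv_mem _ h2)

lemma VP.fg {G : Type u} [Group G] (h : VP G) : Group.FG G := by
  obtain ⟨P, hP, n, hn⟩ := h
  exact fg_of_finiteIndex P (PolyLen.fg n hn)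

lemma finite_hom_of_fg {M : Type u} {X : Type v} [Group M] [Group X] [hM : Group.FG M] [Finite X] :
    Finite (M →* X) := by
  obtain ⟨S, hS⟩ := hM.out
  refine Finite.of_injective (fun φ : M →* X => fun s : S => φ s) ?_
  intro φ ψ h
  refine MonoidHom.eq_of_eqOn_dense hS ?_
  intro s hs
  exact congrFun h ⟨s, hs⟩


lemma VP.of_cycQuot {E : Type u} [Group E] (M : Subgroup E) [hMn : M.Normal] (hc : CycQuot M)
    (hM : VP M) : VP E := by
  have hfg : Group.FG M := hM.fg
  obtain ⟨P, hP, n, hn⟩ := hM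
  have hfin1 : Finite (M ⧸ P.normalCore) := inferInstance
  have hfin2 : Finite (M →* M ⧸ P.normalCore) := finite_hom_of_fg
  set P2 : Subgroup M := ⨅ φ : M →* M ⧸ P.normalCore, φ.ker with hP2
  have hP2idx : P2.index ≠ 0 := by
    refine Subgroup.index_iInf_ne_zero (fun φ => ?_)
    rw [Subgroup.index_ker]
    exact Nat.card_pos.ne'
  have hP2le : P2 ≤ P := by
    refine (iInf_le _ (QuotientGroup.mk' P.normalCore)).trans ?_
    rw [QuotientGroup.ker_mk']
    exact Subgroup.normalCore_le P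
  have hP2inv : ∀ (α : M ≃* M) (x : M), x ∈ P2 → α x ∈ P2 := by
    intro α x hx
    rw [hP2, Subgroup.mem_iInf] at hx ⊢
    intro φ
    exact hx (φ.comp α.toMonoidHom)
  set W : Subgroup E := P2.map M.subtype with hW
  have hWn : W.Normal := by
    refine ⟨fun w hw e => ?_⟩
    obtain ⟨x, hx, rfl⟩ := hw
    exact ⟨MulAut.conjNormal e x, hP2inv _ x hx, by simp [MulAut.conjNormal_apply]⟩
  obtain ⟨t, ht⟩ := hc
  set C : Subgroup E := zpowers t ⊔ W with hC
  have htC : t ∈ C := (le_sup_left : zpowers t ≤ C) (mem_zpowers t)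
  have hWC : W ≤ C := le_sup_right
  refine ⟨C, ?_, n + 1, W.subgroupOf C, hWn.subgroupOf C, ?_, ?_⟩
  · have hfin3 : Finite (M ⧸ P2) := Subgroup.index_ne_zero_iff_finite.mp hP2idx
    have : Finite (E ⧸ C) := by
      refine Finite.of_surjective (fun q : M ⧸ P2 => ((q.out : E) : E ⧸ C)) ?_
      intro y
      induction y using QuotientGroup.induction_on with
      | H e =>
        obtain ⟨k, hk⟩ := ht e
        have hm' : t ^ k * ((t ^ k)⁻¹ * e) * (t ^ k)⁻¹ ∈ M := hMn.conj_mem _ hk _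
        set m' : M := ⟨t ^ k * ((t ^ k)⁻¹ * e) * (t ^ k)⁻¹, hm'⟩ with hm'def
        obtain ⟨p, hp⟩ := QuotientGroup.mk_out_eq_mul P2 m'
        refine ⟨(m' : M ⧸ P2), ?_⟩
        refine QuotientGroup.eq.mpr ?_
        rw [hp]
        have h1 : ((m' * (p : M) : M) : E)⁻¹ * e = ((p : M) : E)⁻¹ * t ^ k := by
          simp only [Subgroup.coe_mul, hm'def]
          group
        rw [h1]
        refine C.mul_mem (C.inv_mem (hWC ⟨(p : M), p.2, rfl⟩)) (C.zpow_mem htC k)
    exact Subgroup.finiteIndex_of_finite_quotient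
  · refine ⟨⟨t, htC⟩, fun b => ?_⟩
    obtain ⟨b, hb⟩ := b
    obtain ⟨z, hz, w, hw, rfl⟩ := (Subgroup.mem_sup_of_normal_right).mp hb
    obtain ⟨k, rfl⟩ := hz
    refine ⟨k, ?_⟩
    rw [Subgroup.mem_subgroupOf]
    simpa using hw
  · refine PolyLen.of_injective n
      ((Subgroup.inclusion hP2le).comp
        (((Subgroup.equivMapOfInjective P2 M.subtype M.subtype_injective).symm.toMonoidHom).comp
          (Subgroup.subgroupOfEquivOfLe hWC).toMonoidHom)) ?_ hn
    refine (Subgroup.inclusion_injective hP2le).comp ?_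
    exact (MulEquiv.injective (Subgroup.equivMapOfInjective P2 M.subtype
      M.subtype_injective).symm).comp (MulEquiv.injective (Subgroup.subgroupOfEquivOfLe hWC))


lemma VP.ker_subgroupComap {E : Type u} {Q : Type v} [Group E] [Group Q] (f : E →* Q)
    (M : Subgroup Q) (hk : VP f.ker) : VP (f.subgroupComap M).ker := by
  refine VP.of_injective
    (((M.comap f).subtype.comp (f.subgroupComap M).ker.subtype).codRestrict f.ker ?_) ?_ hk
  · intro x
    have hx := x.2
    rw [MonoidHom.mem_ker] at hx ⊢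
    exact congrArg Subtype.val hx
  · intro x y hxy
    have := congrArg Subtype.val hxy
    exact Subtype.ext (Subtype.ext this)

lemma VP.of_ker_polyLen : ∀ (b : ℕ) {E : Type u} {Q : Type v} [Group E] [Group Q] (f : E →* Q),
    PolyLen b Q → VP f.ker → VP E
  | 0, E, Q, _, _, f, hQ, hk => by
    have h' : Subsingleton Q := hQ
    refine VP.of_injective ((MonoidHom.id E).codRestrict f.ker
      (fun x => by rw [MonoidHom.mem_ker]; exact Subsingleton.elim _ _)) ?_ hk
    intro x y hxy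
    exact congrArg Subtype.val hxy
  | b + 1, E, Q, _, _, f, hQ, hk => by
    obtain ⟨M, hM, hc, hp⟩ := hQ
    have h1 : VP (M.comap f) :=
      VP.of_ker_polyLen b (f.subgroupComap M) hp (VP.ker_subgroupComap f M hk)
    have : (M.comap f).Normal := hM.comap f
    exact VP.of_cycQuot (M.comap f) (hc.comap f) h1

lemma VP.of_ker {E : Type u} {Q : Type v} [Group E] [Group Q] (f : E →* Q)
    (hQ : VP Q) (hk : VP f.ker) : VP E := by
  obtain ⟨P, hP, b, hb⟩ := hQ
  have h1 : VP (P.comap f) :=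
    VP.of_ker_polyLen b (f.subgroupComap P) hb (VP.ker_subgroupComap f P hk)
  have : (P.comap f).FiniteIndex := finiteIndex_comap f P
  exact VP.of_finiteIndex (P.comap f) h1

lemma VP.of_finite {G : Type u} [Group G] [Finite G] : VP G :=
  ⟨⊥, inferInstance, 0, (inferInstance : Subsingleton (⊥ : Subgroup G))⟩


lemma exists_polyLen_of_isPolycyclic {G : Type u} [Group G] (h : IsPolycyclic G) :
    ∃ n, PolyLen n G := by
  obtain ⟨m, S, h0, hm, hstep⟩ := h
  have key : ∀ i, i ≤ m → PolyLen i (S i) := by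
    intro i
    induction i with
    | zero =>
      intro _
      have : Subsingleton (S 0) := by rw [h0]; infer_instance
      exact this
    | succ i ih =>
      intro hi
      obtain ⟨hle, hn, hcyc⟩ := hstep i hi
      exact ⟨(S i).subgroupOf (S (i + 1)), hn, (cycQuot_iff _).mpr hcyc,
        PolyLen.of_injective i (Subgroup.subgroupOfEquivOfLe hle).toMonoidHom
          (MulEquiv.injective (Subgroup.subgroupOfEquivOfLe hle)) (ih (Nat.le_of_succ_le hi))⟩
  refine ⟨m, PolyLen.of_injective m ((MonoidHom.id G).codRestrict (S m)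
    (fun x => by rw [hm]; exact Subgroup.mem_top x)) ?_ (key m le_rfl)⟩
  intro x y hxy
  exact congrArg Subtype.val hxy

lemma normal_map_subgroupOf {G : Type u} {G' : Type v} [Group G] [Group G'] (f : G →* G')
    (hf : Function.Injective f) (A B : Subgroup G) (h : (A.subgroupOf B).Normal) :
    ((A.map f).subgroupOf (B.map f)).Normal := by
  refine ⟨?_⟩
  rintro ⟨_, a, ha, rfl⟩ hn ⟨_, b, hb, rfl⟩
  rw [Subgroup.mem_subgroupOf] at hn ⊢
  have haA : a ∈ A := (Subgroup.mem_map_iff_mem hf).mp hn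
  have := h.conj_mem ⟨a, ha⟩ (Subgroup.mem_subgroupOf.mpr haA) ⟨b, hb⟩
  rw [Subgroup.mem_subgroupOf] at this
  exact ⟨_, this, by simp⟩

lemma cycQuot_map_subgroupOf {G : Type u} {G' : Type v} [Group G] [Group G'] (f : G →* G')
    (A B : Subgroup G) (h : CycQuot (A.subgroupOf B)) :
    CycQuot ((A.map f).subgroupOf (B.map f)) := by
  obtain ⟨⟨g, hg⟩, hgen⟩ := h
  refine ⟨⟨f g, g, hg, rfl⟩, ?_⟩
  rintro ⟨_, b, hb, rfl⟩
  obtain ⟨n, hn⟩ := hgen ⟨b, hb⟩
  refine ⟨n, ?_⟩
  rw [Subgroup.mem_subgroupOf] at hn ⊢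
  exact ⟨_, hn, by simp⟩

def Step {G : Type u} [Group G] (A B : Subgroup G) : Prop :=
  A ≤ B ∧ ∃ _ : (A.subgroupOf B).Normal, IsCyclic (B ⧸ A.subgroupOf B)

lemma isPolycyclic_of_polyLen : ∀ (n : ℕ) {G : Type u} [Group G], PolyLen n G → IsPolycyclic G
  | 0, G, _, h => by
    have h' : Subsingleton G := h
    exact ⟨0, fun _ => ⊥, rfl, Subsingleton.elim _ _, by simp⟩
  | n + 1, G, _, h => by
    obtain ⟨N, hN, hc, hp⟩ := h
    obtain ⟨m, S', h0, hm, hs⟩ := isPolycyclic_of_polyLen n hp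
    refine ⟨m + 1, fun i => if i ≤ m then (S' i).map N.subtype else ⊤, ?_, ?_, ?_⟩
    · simp [h0]
    · simp
    · intro i hi
      show Step (if i ≤ m then (S' i).map N.subtype else ⊤)
        (if i + 1 ≤ m then (S' (i + 1)).map N.subtype else ⊤)
      rcases Nat.lt_succ_iff_lt_or_eq.mp hi with hlt | rfl
      · have h1 : i ≤ m := hlt.le
        have h2 : i + 1 ≤ m := hlt
        rw [if_pos h1, if_pos h2]
        obtain ⟨hle, hn, hcyc⟩ := hs i hlt
        have hn' := normal_map_subgroupOf N.subtype N.subtype_injective _ _ hn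
        exact ⟨Subgroup.map_mono hle, hn',
          (cycQuot_iff _).mp (cycQuot_map_subgroupOf N.subtype _ _ ((cycQuot_iff _).mpr hcyc))⟩
      · have h2 : ¬ (i + 1 ≤ i) := by omega
        rw [if_pos le_rfl, if_neg h2]
        have hmap : (S' i).map N.subtype = N := by rw [hm, ← MonoidHom.range_eq_map, N.range_subtype]
        rw [hmap]
        have hn' : (N.subgroupOf ⊤).Normal := hN.subgroupOf ⊤
        refine ⟨le_top, hn', (cycQuot_iff _).mp ?_⟩
        obtain ⟨g, hg⟩ := hc
        refine ⟨⟨g, Subgroup.mem_top g⟩, ?_⟩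
        rintro ⟨b, _⟩
        obtain ⟨k, hk⟩ := hg b
        refine ⟨k, ?_⟩
        rw [Subgroup.mem_subgroupOf]
        simpa using hk

lemma isPolycyclic_iff {G : Type u} [Group G] : IsPolycyclic G ↔ ∃ n, PolyLen n G :=
  ⟨exists_polyLen_of_isPolycyclic, fun ⟨n, hn⟩ => isPolycyclic_of_polyLen n hn⟩

lemma isVirtuallyPolycyclic_iff {G : Type u} [Group G] : IsVirtuallyPolycyclic G ↔ VP G := by
  unfold IsVirtuallyPolycyclic VP
  simp only [isPolycyclic_iff]

end Vale.Agent.P188
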