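import Vale.Agent.P188.Word
import Vale.Agent.P188.Poly

namespace Vale.Agent.P188
open Subgroup
open scoped Pointwise

universe u v

section
variable {H : Type u} {G : Type v} [Group H] [Group G] {S : Set H} {T : Set G}
  {K C : ℝ} {F : H → G}

lemma IsQuasiIsometry.dist_le (hF : IsQuasiIsometry (wordDist S) (wordDist T) K C F) (x x' : H) :
    wordDist S x x' ≤ K * (wordDist T (F x) (F x') + C) := by
  have h1 := hF.lower x x'
  have hK : 0 < K := lt_of_lt_of_le one_pos hF.one_le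
  have h2 : K⁻¹ * wordDist S x x' ≤ wordDist T (F x) (F x') + C := by linarith
  have h3 := mul_le_mul_of_nonneg_left h2 hK.le
  rwa [← mul_assoc, mul_inv_cancel₀ hK.ne', one_mul] at h3

theorem qi_subgroups (hS : closure S = ⊤) (hSf : S.Finite) (hT : closure T = ⊤) (hTf : T.Finite)
    (hF : IsQuasiIsometry (wordDist S) (wordDist T) K C F)
    (L : Subgroup H) (N : Subgroup G) (hN : N.FG) (R : ℝ)
    (h1 : ∀ x ∈ L, ∃ n ∈ N, wordDist T (F x) n ≤ R)
    (h2 : ∀ n ∈ N, ∃ x ∈ L, wordDist T (F x) n ≤ R) :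
    L.FG ∧ QuasiIsometricGroups L N := by
  classical
  have hK : 0 < K := lt_of_lt_of_le one_pos hF.one_le
  have hC := hF.nonneg
  obtain ⟨TN, hTN⟩ := ((Group.fg_iff_subgroup_fg N).mpr hN).out
  have h1' : ∀ x : L, ∃ n : N, wordDist T (F x) n ≤ R := fun x => by
    obtain ⟨n, hn, h⟩ := h1 x x.2
    exact ⟨⟨n, hn⟩, h⟩
  have h2' : ∀ n : N, ∃ x : L, wordDist T (F x) n ≤ R := fun n => by
    obtain ⟨x, hx, h⟩ := h2 n n.2
    exact ⟨⟨x, hx⟩, h⟩
  choose f hf using h1'
  choose e he using h2'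
  have hR : 0 ≤ R := le_trans (wordDist_nonneg _ _) (hf 1)
  -- bound on the length of the generators of N
  set r : ℕ := TN.sup (fun τ => wordLength T (τ : G)) with hr
  have hr' : ∀ τ : N, (τ ∈ (TN : Set N) ∨ τ⁻¹ ∈ (TN : Set N)) → wordLength T (τ : G) ≤ r := by
    intro τ hτ
    rcases hτ with h | h
    · exact Finset.le_sup (f := fun τ : N => wordLength T (τ : G)) h
    · have := Finset.le_sup (f := fun τ : N => wordLength T (τ : G)) h
      simpa [wordLength_inv hT] using this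
  set ρ : ℕ := ⌈K * (2 * R + r + C)⌉₊ with hρ
  have hSLfin : {x : L | wordLength S (x : H) ≤ ρ}.Finite :=
    (finite_ball hS hSf ρ).preimage (Subtype.val_injective.injOn)
  set SL : Finset L := hSLfin.toFinset with hSL
  have memSL : ∀ x : L, x ∈ (SL : Set L) ↔ wordLength S (x : H) ≤ ρ := by
    intro x; simp [hSL]
  have toSL : ∀ x x' : L, wordDist T (F x) (F x') ≤ 2 * R + r → x⁻¹ * x' ∈ (SL : Set L) := by
    intro x x' h
    rw [memSL]
    have h3 := hF.dist_le (x : H) (x' : H)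
    have h4 : wordDist S (x : H) (x' : H) ≤ K * (2 * R + r + C) :=
      h3.trans (mul_le_mul_of_nonneg_left (by linarith) hK.le)
    have h5 : ((wordLength S ((x : H)⁻¹ * (x' : H)) : ℕ) : ℝ) ≤ (ρ : ℝ) :=
      h4.trans (Nat.le_ceil _)
    have h6 : wordLength S ((x : H)⁻¹ * (x' : H)) ≤ ρ := by exact_mod_cast h5
    simpa using h6
  have claimA : ∀ (n τ : N), (τ ∈ (TN : Set N) ∨ τ⁻¹ ∈ (TN : Set N)) →
      (e n)⁻¹ * e (n * τ) ∈ (SL : Set L) := by
    intro n τ hτ
    refine toSL _ _ ?_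
    have t1 := wordDist_triangle hT (F (e n)) (n : G) (F (e (n * τ)))
    have t2 := wordDist_triangle hT (n : G) ((n * τ : N) : G) (F (e (n * τ)))
    have t3 : wordDist T (n : G) ((n * τ : N) : G) ≤ r := by
      unfold wordDist
      have : (n : G)⁻¹ * ((n * τ : N) : G) = (τ : G) := by simp
      rw [this]
      exact_mod_cast hr' τ hτ
    have t4 := he n
    have t5 := he (n * τ)
    rw [wordDist_comm hT] at t5
    linarith
  have claimB : ∀ x : L, x⁻¹ * e (f x) ∈ (SL : Set L) := by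
    intro x
    refine toSL _ _ ?_
    have t1 := wordDist_triangle hT (F x) (f x : G) (F (e (f x)))
    have t4 := hf x
    have t5 := he (f x)
    rw [wordDist_comm hT] at t5
    have : (0 : ℝ) ≤ r := Nat.cast_nonneg _
    linarith
  have hgen : closure (SL : Set L) = ⊤ := by
    rw [eq_top_iff]
    intro x _
    have a1 := mem_of_gen hTN e (closure (SL : Set L))
      (fun n τ hτ => subset_closure (claimA n τ hτ)) (f 1) (f x)
    have a2 : (1 : L)⁻¹ * e (f 1) ∈ closure (SL : Set L) := subset_closure (claimB 1)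
    have a3 : x⁻¹ * e (f x) ∈ closure (SL : Set L) := subset_closure (claimB x)
    have a4 : x = ((1 : L)⁻¹ * e (f 1)) * ((e (f 1))⁻¹ * e (f x)) * (x⁻¹ * e (f x))⁻¹ := by group
    rw [a4]
    exact mul_mem (mul_mem a2 a1) (inv_mem a3)
  refine ⟨(Group.fg_iff_subgroup_fg L).mp ⟨⟨SL, hgen⟩⟩, ?_⟩
  -- lower bound
  have low : ∀ x x' : L, wordLength (SL : Set L) (x⁻¹ * x') ≤
      wordLength (TN : Set N) ((f x)⁻¹ * f x') + 2 := by
    intro x x'
    have b1 := lipschitz_of_gen hTN hgen e 1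
      (fun n τ hτ => wordLength_gen (Or.inl (claimA n τ hτ))) (f x) (f x')
    have b2 : wordLength (SL : Set L) (x⁻¹ * e (f x)) ≤ 1 := wordLength_gen (Or.inl (claimB x))
    have b3 : wordLength (SL : Set L) ((x'⁻¹ * e (f x'))⁻¹) ≤ 1 := by
      rw [wordLength_inv hgen]; exact wordLength_gen (Or.inl (claimB x'))
    have b4 := wordLength_mul_le hgen (x⁻¹ * e (f x) * ((e (f x))⁻¹ * e (f x'))) ((x'⁻¹ * e (f x'))⁻¹)
    have b5 := wordLength_mul_le hgen (x⁻¹ * e (f x)) ((e (f x))⁻¹ * e (f x'))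
    have b6 : x⁻¹ * e (f x) * ((e (f x))⁻¹ * e (f x')) * (x'⁻¹ * e (f x'))⁻¹ = x⁻¹ * x' := by group
    rw [b6] at b4
    omega
  -- upper bound
  set ρ2 : ℕ := ⌈2 * R + K * ρ + C⌉₊ with hρ2
  have hBNfin : {ν : N | wordLength T (ν : G) ≤ ρ2}.Finite :=
    (finite_ball hT hTf ρ2).preimage (Subtype.val_injective.injOn)
  set A : ℕ := hBNfin.toFinset.sup (fun ν => wordLength (TN : Set N) ν) with hA
  have toA : ∀ ν ν' : N, wordDist T (ν : G) (ν' : G) ≤ 2 * R + K * ρ + C →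
      wordLength (TN : Set N) (ν⁻¹ * ν') ≤ A := by
    intro ν ν' h
    refine Finset.le_sup (f := fun ν : N => wordLength (TN : Set N) ν) ?_
    rw [Set.Finite.mem_toFinset]
    have h5 : ((wordLength T ((ν : G)⁻¹ * (ν' : G)) : ℕ) : ℝ) ≤ (ρ2 : ℝ) := h.trans (Nat.le_ceil _)
    have h6 : wordLength T ((ν : G)⁻¹ * (ν' : G)) ≤ ρ2 := by exact_mod_cast h5
    simpa using h6
  have claimC : ∀ (x σ : L), (σ ∈ (SL : Set L) ∨ σ⁻¹ ∈ (SL : Set L)) →
      wordLength (TN : Set N) ((f x)⁻¹ * f (x * σ)) ≤ A := by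
    intro x σ hσ
    refine toA _ _ ?_
    have c1 : wordLength S (σ : H) ≤ ρ := by
      rcases hσ with h | h
      · exact (memSL σ).mp h
      · have := (memSL σ⁻¹).mp h
        simpa [wordLength_inv hS] using this
    have c2 : wordDist S (x : H) ((x * σ : L) : H) ≤ ρ := by
      unfold wordDist
      have : (x : H)⁻¹ * ((x * σ : L) : H) = (σ : H) := by simp
      rw [this]
      exact_mod_cast c1
    have c3 := hF.upper (x : H) ((x * σ : L) : H)
    have c4 := wordDist_triangle hT (f x : G) (F x) (f (x * σ) : G)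
    have c5 := wordDist_triangle hT (F x) (F ((x * σ : L) : H)) (f (x * σ) : G)
    have c6 := hf x
    rw [wordDist_comm hT] at c6
    have c7 := hf (x * σ)
    have c8 : K * wordDist S (x : H) ((x * σ : L) : H) ≤ K * ρ :=
      mul_le_mul_of_nonneg_left c2 hK.le
    linarith
  have up : ∀ x x' : L, wordLength (TN : Set N) ((f x)⁻¹ * f x') ≤
      A * wordLength (SL : Set L) (x⁻¹ * x') := lipschitz_of_gen hgen hTN f A claimC
  have dens : ∀ ν : N, wordLength (TN : Set N) (ν⁻¹ * f (e ν)) ≤ A := by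
    intro ν
    refine toA _ _ ?_
    have d1 := wordDist_triangle hT (ν : G) (F (e ν)) (f (e ν) : G)
    have d2 := he ν
    rw [wordDist_comm hT] at d2
    have d3 := hf (e ν)
    have d4 : 0 ≤ K * (ρ : ℝ) := mul_nonneg hK.le (Nat.cast_nonneg _)
    linarith
  refine ⟨SL, TN, hgen, hTN, (A : ℝ) + 1, (A : ℝ) + 2, f, ?_⟩
  have hA0 : (0 : ℝ) ≤ A := Nat.cast_nonneg _
  refine ⟨by linarith, by linarith, ?_, ?_, ?_⟩
  · intro x x'
    have l1 : (wordLength (SL : Set L) (x⁻¹ * x') : ℝ) ≤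
        (wordLength (TN : Set N) ((f x)⁻¹ * f x') : ℝ) + 2 := by exact_mod_cast low x x'
    have l2 : ((A : ℝ) + 1)⁻¹ ≤ 1 := inv_le_one_of_one_le₀ (by linarith)
    have l3 : ((A : ℝ) + 1)⁻¹ * wordDist (SL : Set L) x x' ≤ 1 * wordDist (SL : Set L) x x' :=
      mul_le_mul_of_nonneg_right l2 (wordDist_nonneg _ _)
    unfold wordDist at l3 ⊢
    linarith
  · intro x x'
    have u1 : (wordLength (TN : Set N) ((f x)⁻¹ * f x') : ℝ) ≤
        (A : ℝ) * (wordLength (SL : Set L) (x⁻¹ * x') : ℝ) := by exact_mod_cast up x x'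
    have u2 : (0 : ℝ) ≤ (wordLength (SL : Set L) (x⁻¹ * x') : ℝ) := Nat.cast_nonneg _
    unfold wordDist
    nlinarith
  · intro ν
    refine ⟨e ν, ?_⟩
    have : (wordLength (TN : Set N) (ν⁻¹ * f (e ν)) : ℝ) ≤ (A : ℝ) := by exact_mod_cast dens ν
    unfold wordDist
    linarith


lemma exists_bound {α : Type*} {B : Set α} (hB : B.Finite) (φ : α → ℕ) :
    ∃ M : ℕ, ∀ b ∈ B, φ b ≤ M := by
  obtain ⟨M, hM⟩ := (hB.image φ).bddAbove
  exact ⟨M, fun b hb => hM ⟨b, hb, rfl⟩⟩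

theorem fibre_theorem {Q : Type*} [Group Q]
    (hS : closure S = ⊤) (hSf : S.Finite) (hT : closure T = ⊤) (hTf : T.Finite)
    (hG : IsVirtuallyPolycyclic G)
    (hF : IsQuasiIsometry (wordDist S) (wordDist T) K C F)
    (ψ : G →* Q) (hψ : Function.Surjective ψ) (χ : H →* Q)
    (B : Set Q) (hB : B.Finite) (hcomp : ∀ x, (χ x)⁻¹ * ψ (F x) ∈ B) :
    χ.ker.FG ∧ QuasiIsometricGroups χ.ker ψ.ker ∧
      ((∀ (Γ : Type u) [Group Γ], QuasiIsometricGroups Γ ψ.ker → IsVirtuallyPolycyclic Γ) →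
        IsVirtuallyPolycyclic H) := by
  classical
  have hK : 0 < K := lt_of_lt_of_le one_pos hF.one_le
  have hC := hF.nonneg
  have hGv : VP G := isVirtuallyPolycyclic_iff.mp hG
  have hNfg : ψ.ker.FG :=
    (Group.fg_iff_subgroup_fg _).mp (VP.of_injective ψ.ker.subtype ψ.ker.subtype_injective hGv).fg
  -- section of ψ
  obtain ⟨R1, hR1⟩ := exists_bound hB (fun b => wordLength T (Function.surjInv hψ b))
  -- the finite set of possible values of χ near the fibre
  set c : ℕ := ⌈C⌉₊ with hc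
  have hB' : ((ψ '' {w : G | wordLength T w ≤ c}) * B⁻¹).Finite :=
    ((finite_ball hT hTf c).image ψ).mul hB.inv
  set τ : Q → H := fun q => if h : ∃ y, χ y = q then h.choose else 1 with hτ
  have hτ' : ∀ y, χ (τ (χ y)) = χ y := by
    intro y
    have h : ∃ z, χ z = χ y := ⟨y, rfl⟩
    simp only [hτ, dif_pos h]
    exact h.choose_spec
  obtain ⟨R2, hR2⟩ := exists_bound hB' (fun q => wordLength S (τ q))
  have main := qi_subgroups hS hSf hT hTf hF χ.ker ψ.ker hNfg (max (R1 : ℝ) (K * R2 + 2 * C)) ?_ ?_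
  · refine ⟨main.1, main.2, fun hrig => ?_⟩
    have hQ : VP Q := VP.of_surjective ψ hψ hGv
    have hk : VP χ.ker := isVirtuallyPolycyclic_iff.mp (hrig χ.ker main.2)
    exact isVirtuallyPolycyclic_iff.mpr (VP.of_ker χ hQ hk)
  · intro x hx
    have hb : ψ (F x) ∈ B := by
      have := hcomp x
      rw [MonoidHom.mem_ker] at hx
      simpa [hx] using this
    refine ⟨F x * (Function.surjInv hψ (ψ (F x)))⁻¹, ?_, ?_⟩
    · rw [MonoidHom.mem_ker, map_mul, map_inv, Function.surjInv_eq hψ, mul_inv_cancel]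
    · refine le_trans ?_ (le_max_left _ _)
      unfold wordDist
      have : (F x)⁻¹ * (F x * (Function.surjInv hψ (ψ (F x)))⁻¹)
          = (Function.surjInv hψ (ψ (F x)))⁻¹ := by group
      rw [this, wordLength_inv hT]
      exact_mod_cast hR1 _ hb
  · intro n hn
    obtain ⟨x, hx⟩ := hF.dense n
    have hw : wordLength T (n⁻¹ * F x) ≤ c := by
      have : ((wordLength T (n⁻¹ * F x) : ℕ) : ℝ) ≤ (c : ℝ) := hx.trans (Nat.le_ceil _)
      exact_mod_cast this
    have hχ : χ x ∈ (ψ '' {w : G | wordLength T w ≤ c}) * B⁻¹ := by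
      refine Set.mem_mul.mpr ⟨ψ (n⁻¹ * F x), ⟨_, hw, rfl⟩, ((χ x)⁻¹ * ψ (F x))⁻¹,
        Set.inv_mem_inv.mpr (hcomp x), ?_⟩
      rw [MonoidHom.mem_ker] at hn
      simp [hn]
    refine ⟨x * (τ (χ x))⁻¹, ?_, ?_⟩
    · rw [MonoidHom.mem_ker, map_mul, map_inv, hτ', mul_inv_cancel]
    · refine le_trans ?_ (le_max_right _ _)
      have e1 := wordDist_triangle hT (F (x * (τ (χ x))⁻¹)) (F x) n
      have e2 := hF.upper (x * (τ (χ x))⁻¹) x
      have e3 : wordDist S (x * (τ (χ x))⁻¹) x ≤ R2 := by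
        unfold wordDist
        have : (x * (τ (χ x))⁻¹)⁻¹ * x = τ (χ x) := by group
        rw [this]
        exact_mod_cast hR2 _ hχ
      have e4 : K * wordDist S (x * (τ (χ x))⁻¹) x ≤ K * R2 := mul_le_mul_of_nonneg_left e3 hK.le
      rw [wordDist_comm hT] at hx
      linarith

end

end Vale.Agent.P188
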