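import Vale.Agent.P188.Defs

namespace Vale.Agent.P188
open Subgroup

universe u v

section
variable {G : Type u} [Group G] (S : Set G)

def IsWord (l : List G) : Prop := ∀ x ∈ l, x ∈ S ∨ x⁻¹ ∈ S

lemma wordLength_le_of_word {l : List G} (hl : IsWord S l) : wordLength S l.prod ≤ l.length :=
  Nat.sInf_le ⟨l, rfl, hl, rfl⟩

variable {S}

lemma exists_word (hS : closure S = ⊤) (g : G) :
    ∃ l : List G, l.length = wordLength S g ∧ IsWord S l ∧ l.prod = g := by
  have hne : {n : ℕ | ∃ l : List G, l.length = n ∧ (∀ x ∈ l, x ∈ S ∨ x⁻¹ ∈ S) ∧ l.prod = g}.Nonempty := by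
    have hg : g ∈ Submonoid.closure (S ∪ S⁻¹) := by
      rw [← Subgroup.closure_toSubmonoid, hS]; trivial
    obtain ⟨l, hl, hp⟩ := Submonoid.exists_list_of_mem_closure hg
    exact ⟨l.length, l, rfl, fun x hx => (hl x hx).imp id (fun h => h), hp⟩
  exact Nat.sInf_mem hne

lemma wordLength_one : wordLength S (1 : G) = 0 := by
  have := wordLength_le_of_word S (l := []) (by intro x hx; simp at hx)
  simpa using this

lemma wordLength_mul_le (hS : closure S = ⊤) (g h : G) :
    wordLength S (g * h) ≤ wordLength S g + wordLength S h := by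
  obtain ⟨l₁, h1, w1, rfl⟩ := exists_word hS g
  obtain ⟨l₂, h2, w2, rfl⟩ := exists_word hS h
  rw [← h1, ← h2, ← List.prod_append, ← List.length_append]
  refine wordLength_le_of_word S ?_
  intro x hx
  rcases List.mem_append.mp hx with hx | hx
  · exact w1 x hx
  · exact w2 x hx

lemma wordLength_inv_le (hS : closure S = ⊤) (g : G) : wordLength S g⁻¹ ≤ wordLength S g := by
  obtain ⟨l, h1, w1, rfl⟩ := exists_word hS g
  rw [← h1, List.prod_inv_reverse]
  have : (l.map (fun x => x⁻¹)).reverse.length = l.length := by simp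
  rw [← this]
  refine wordLength_le_of_word S ?_
  intro x hx
  rw [List.mem_reverse, List.mem_map] at hx
  obtain ⟨y, hy, rfl⟩ := hx
  rcases w1 y hy with h | h
  · right; simpa using h
  · left; exact h

lemma wordLength_inv (hS : closure S = ⊤) (g : G) : wordLength S g⁻¹ = wordLength S g := by
  refine le_antisymm (wordLength_inv_le hS g) ?_
  have := wordLength_inv_le hS g⁻¹
  simpa using this

lemma wordLength_gen {s : G} (hs : s ∈ S ∨ s⁻¹ ∈ S) : wordLength S s ≤ 1 := by
  have := wordLength_le_of_word S (l := [s]) (by intro x hx; simp at hx; subst hx; exact hs)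
  simpa using this

lemma finite_ball (hS : closure S = ⊤) (hfin : S.Finite) (n : ℕ) :
    {g : G | wordLength S g ≤ n}.Finite := by
  have hA : (S ∪ S⁻¹).Finite := hfin.union hfin.inv
  have : Finite ↥(S ∪ S⁻¹) := hA
  have hl : {l : List ↥(S ∪ S⁻¹) | l.length < n + 1}.Finite := List.finite_length_lt _ _
  refine (hl.image (fun l => (l.map Subtype.val).prod)).subset ?_
  intro g hg
  obtain ⟨l, h1, w1, rfl⟩ := exists_word hS g
  have hmem : ∀ x ∈ l, x ∈ S ∪ S⁻¹ := by
    intro x hx
    rcases w1 x hx with h | h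
    · exact Or.inl h
    · exact Or.inr h
  refine ⟨l.pmap (fun x hx => ⟨x, hx⟩) hmem, ?_, ?_⟩
  · simp only [Set.mem_ofPred_eq, List.length_pmap]
    have : wordLength S l.prod ≤ n := hg
    omega
  · simp [List.map_pmap]

end


section
variable {G : Type u} [Group G] {S : Set G}

lemma wordDist_nonneg (x y : G) : 0 ≤ wordDist S x y := Nat.cast_nonneg _

lemma wordDist_self (x : G) : wordDist S x x = 0 := by
  simp [wordDist, wordLength_one]

lemma wordDist_comm (hS : closure S = ⊤) (x y : G) : wordDist S x y = wordDist S y x := by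
  unfold wordDist
  rw [← wordLength_inv hS (x⁻¹ * y)]
  simp

lemma wordDist_triangle (hS : closure S = ⊤) (x y z : G) :
    wordDist S x z ≤ wordDist S x y + wordDist S y z := by
  unfold wordDist
  have := wordLength_mul_le hS (x⁻¹ * y) (y⁻¹ * z)
  have h2 : x⁻¹ * y * (y⁻¹ * z) = x⁻¹ * z := by group
  rw [h2] at this
  exact_mod_cast this

lemma wordDist_mul_left (g x y : G) : wordDist S (g * x) (g * y) = wordDist S x y := by
  unfold wordDist
  congr 2
  group

end

section
variable {X : Type u} {Y : Type v} [Group X] [Group Y] {SX : Set X} {SY : Set Y}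

lemma lipschitz_of_gen (hSX : closure SX = ⊤) (hSY : closure SY = ⊤) (φ : X → Y) (a : ℕ)
    (h : ∀ x s, (s ∈ SX ∨ s⁻¹ ∈ SX) → wordLength SY ((φ x)⁻¹ * φ (x * s)) ≤ a) (x x' : X) :
    wordLength SY ((φ x)⁻¹ * φ x') ≤ a * wordLength SX (x⁻¹ * x') := by
  have key : ∀ (l : List X) (x : X), IsWord SX l →
      wordLength SY ((φ x)⁻¹ * φ (x * l.prod)) ≤ a * l.length := by
    intro l
    induction l with
    | nil => intro x _; simp [wordLength_one]
    | cons s l ih =>
      intro x hw
      have h1 := h x s (hw s (by simp))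
      have h2 := ih (x * s) (fun y hy => hw y (by simp [hy]))
      have h3 := wordLength_mul_le hSY ((φ x)⁻¹ * φ (x * s)) ((φ (x * s))⁻¹ * φ (x * s * l.prod))
      have h4 : (φ x)⁻¹ * φ (x * s) * ((φ (x * s))⁻¹ * φ (x * s * l.prod))
          = (φ x)⁻¹ * φ (x * (s :: l).prod) := by
        rw [List.prod_cons]; group
      rw [h4] at h3
      rw [List.length_cons]
      nlinarith
  obtain ⟨l, hlen, hw, hp⟩ := exists_word hSX (x⁻¹ * x')
  have := key l x hw
  rw [hp, hlen] at this
  simpa using this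

lemma mem_of_gen (hSX : closure SX = ⊤) (φ : X → Y) (U : Subgroup Y)
    (h : ∀ x s, (s ∈ SX ∨ s⁻¹ ∈ SX) → (φ x)⁻¹ * φ (x * s) ∈ U) (x x' : X) :
    (φ x)⁻¹ * φ x' ∈ U := by
  have key : ∀ (l : List X) (x : X), IsWord SX l → (φ x)⁻¹ * φ (x * l.prod) ∈ U := by
    intro l
    induction l with
    | nil => intro x _; simp
    | cons s l ih =>
      intro x hw
      have h1 := h x s (hw s (by simp))
      have h2 := ih (x * s) (fun y hy => hw y (by simp [hy]))
      have h4 : (φ x)⁻¹ * φ (x * s) * ((φ (x * s))⁻¹ * φ (x * s * l.prod))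
          = (φ x)⁻¹ * φ (x * (s :: l).prod) := by
        rw [List.prod_cons]; group
      rw [← h4]
      exact U.mul_mem h1 h2
  obtain ⟨l, _, hw, hp⟩ := exists_word hSX (x⁻¹ * x')
  have := key l x hw
  rw [hp] at this
  simpa using this

end

end Vale.Agent.P188
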